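import Vale.Agent.P139.BU.Final
import Vale.Agent.P139.BU.Stable13
import Vale.Agent.P139.BU.NFinal

open Set MeasureTheory ProbabilityTheory
open scoped ENNReal

namespace Vale.Agent.Results.P139.FiniteTimeBlowup

open Vale.Agent.P139.A

/-- Negative answer to Q1.
1. In dimension `d = 13`, for every large `m` and `p = 2m+1` there are `α₁` and `T₁` such that for
   every `α > α₁`, with positive probability the lifespans of the solution with the Gaussian datum
   in `H^k`, `13/2 < k < α - 13`, are all equal to one finite time `0 < T ≤ T₁` (and those in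
   `H^k`, `k > 13/2`, are at most `T`).
2. The statement of Q1 (for every energy-supercritical pair the solution is global almost surely
   for all large `α`) is false. -/
theorem result :
    (∃ m₀ : ℕ, ∀ m : ℕ, m₀ ≤ m → ∃ α₁ T₁ : ℝ, ∀ α : ℝ, α₁ < α →
      ∀ (Ω : Type) [MeasurableSpace Ω] (P : Measure Ω) [IsProbabilityMeasure P]
        (g : (Fin 13 → ℤ) → Ω → ℂ), (∀ n, Measurable (g n)) → iIndepFun g P →
        (∀ n, P.map (g n) = stdComplexGaussian) →
        0 < P {ω | ∃ T : ℝ, 0 < T ∧ T ≤ T₁ ∧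
          (∀ k : ℕ, 13 < 2 * k → (k : ℝ) + 13 < α →
            lifespan 13 (2 * m + 1) k (datum g α ω) = ENNReal.ofReal T) ∧
          ∀ k : ℕ, 13 < 2 * k →
            lifespan 13 (2 * m + 1) k (datum g α ω) ≤ ENNReal.ofReal T}) ∧
    ¬ ∀ d p : ℕ, Odd p → 3 ≤ p → 1 < (d : ℝ) / 2 - 2 / ((p : ℝ) - 1) →
      ∃ α₀ : ℝ, ∀ α : ℝ, α₀ < α →
        ∀ (Ω : Type) [MeasurableSpace Ω] (P : Measure Ω) [IsProbabilityMeasure P]
          (g : (Fin d → ℤ) → Ω → ℂ), (∀ n, Measurable (g n)) → iIndepFun g P →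
          (∀ n, P.map (g n) = stdComplexGaussian) →
          ∀ k : ℕ, d < 2 * k → (k : ℝ) < α - d / 2 →
            ∀ᵐ ω ∂P, lifespan d p k (datum g α ω) = ⊤ :=
  Vale.Agent.P139.BU.final_of_blocks Vale.Agent.P139.BU.stableProfile13
    fun _ hm => Vale.Agent.P139.BU.profileBlowup hm

end Vale.Agent.Results.P139.FiniteTimeBlowup
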